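import Vale.Agent.P284.H451.G.Glo
import Vale.Agent.P284.H650.T.Spec

/-!
# P284 (helper451), T3⁺, (T0): `DKG'Stmt`
-/

namespace Vale.Agent.P284.H451.T

/-- **(T0)** -/
theorem dkG'Stmt : H650.T.DKG'Stmt := H451.G.dkG'

end Vale.Agent.P284.H451.T
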